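import Vale.Agent.P277.H615.I.Rk
import Vale.Agent.P277.H615.R.OrdV

/-!
# P277, (INJ): the germs of one exceptional divisor are centred in one component
-/

open scoped Manifold ContDiff Topology
open Vale.Agent.P272.K Vale.Agent.P285.H281.FD Vale.Agent.P267.H175 Set Filter Metric

noncomputable section

namespace Vale.Agent.P277.H615.I

open Vale.Agent.P277 Vale.Agent.P277.T2 Vale.Agent.P277.H335 Vale.Agent.P277.H615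

variable {Y : Type} [TopologicalSpace Y] [ChartedSpace (Cm 4) Y] {k : ℕ} {X : CSp}
  {N : Fin k → Bd Y} {L : Fin k → Bd X.pt} {O : Set Y} {v : Y → X.pt}
  {T : ∀ e, (L e).ι → (N e).ι → Y → ℂ} {G : Set Y} {ξ ξ' : Cm 4 → Y} {w₀ w₀' : Cm 4} {r r' : ℝ}
  {γ γ' : Cm 4 → X.pt} {i i' : ∀ e, (L e).ι} {n n' : ∀ e, (N e).ι} {x x' : Fin k → ℚ}

/-- the change of coordinates between two germs -/
theorem nice_trans (hO : Dense O) (h : NiceAtV O v T G ξ w₀ r γ i n x)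
    (h' : NiceAtV O v T G ξ' w₀' r' γ' i' n' x') (heq : ξ w₀ = ξ' w₀') :
    ∃ τ : Cm 4 → Cm 4, AnalyticAt ℂ τ w₀ ∧ τ w₀ = w₀' ∧
      ∀ᶠ w in 𝓝 w₀, γ w = γ' (τ w) ∧ (w 0 = 0 → τ w 0 = 0) := by
  have hw₀ : w₀ ∈ ball w₀ r := mem_ball_self h.par.pos
  have hw₀' : w₀' ∈ ball w₀' r' := mem_ball_self h'.par.pos
  obtain ⟨ψ, C, hψ, hψ0, hψξ, hC, hb⟩ := exists_trans' h.par h'.par heq
  have htψ : Tendsto ψ (𝓝 w₀) (𝓝 w₀') := by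
    have := hψ.continuousAt.tendsto
    rwa [hψ0] at this
  have hev : ∀ᶠ w in 𝓝 w₀, w ∈ ball w₀ r ∧ ψ w ∈ ball w₀' r' ∧ ξ' (ψ w) = ξ w ∧
      ContinuousAt ψ w := by
    filter_upwards [isOpen_ball.mem_nhds hw₀, htψ.eventually (isOpen_ball.mem_nhds hw₀'), hψξ,
      hψ.eventually_analyticAt] with w k1 k2 k3 k4
    exact ⟨k1, k2, k3, k4.continuousAt⟩
  obtain ⟨W, hWs, hW, hw₀W⟩ := _root_.mem_nhds_iff.1 hev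
  have hag : ∀ w ∈ W, γ w = γ' (ψ w) := by
    refine eqOn_of_closure (D := {w | ξ w ∈ O}) hW (fun w hw => (h.hol w (hWs hw).1).1)
      (fun w hw => ContinuousAt.comp (g := γ') (f := ψ) (h'.hol _ (hWs hw).2.1).1 (hWs hw).2.2.2)
      ?_ ?_
    · intro w hw
      rw [mem_closure_iff_nhds]
      intro U hU
      obtain ⟨w', k1, k2, k3⟩ := IsPar.dense h.par hO (hWs hw).1 (inter_mem hU (hW.mem_nhds hw))
      exact ⟨w', k1.1, k1.2, k3⟩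
    · intro w hw hwO
      obtain ⟨g1, g2, g3, -⟩ := hWs hw
      rw [h.eq w g1 hwO, h'.eq (ψ w) g2 (by rw [g3]; exact hwO), g3]
  refine ⟨ψ, hψ, hψ0, ?_⟩
  filter_upwards [hW.mem_nhds hw₀W, hb] with w k1 k2
  refine ⟨hag w k1, fun h0 => ?_⟩
  have := k2.1
  rw [h0, norm_zero, mul_zero] at this
  exact norm_le_zero_iff.1 this

theorem nice_val (hO : Dense O) (h : NiceAtV O v T G ξ w₀ r γ i n x)
    (h' : NiceAtV O v T G ξ' w₀' r' γ' i' n' x') (heq : ξ w₀ = ξ' w₀') : γ w₀ = γ' w₀' := by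
  obtain ⟨τ, -, h1, h2⟩ := nice_trans hO h h' heq
  rw [h2.self_of_nhds.1, h1]

/-- properties of the germs, invariant and given by analytic equations -/
structure IsProp (X : CSp) (Pr : (Cm 4 → X.pt) → Cm 4 → Prop) : Prop where
  inv : ∀ (γ γ' : Cm 4 → X.pt) (τ : Cm 4 → Cm 4) (w : Cm 4), AnalyticAt ℂ τ w →
    HolAt X γ' (τ w) → (∀ᶠ z in 𝓝 w, γ z = γ' (τ z) ∧ (z 0 = 0 → τ z 0 = 0)) → w 0 = 0 →
    Pr γ' (τ w) → Pr γ w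
  eqn : ∀ (γ : Cm 4 → X.pt) (w₀ : Cm 4) (r : ℝ), 0 < r → (∀ w ∈ ball w₀ r, HolAt X γ w) →
    ∃ (ι : Type) (_ : Finite ι) (F : ι → Cm 4 → ℂ), (∀ i, AnalyticAt ℂ (F i) w₀) ∧
      ∀ᶠ w in 𝓝 w₀, w 0 = 0 → (Pr γ w ↔ ∀ i, F i w = 0)

theorem isProp_an {S : Set X.pt} (hS : IsAn X univ S) : IsProp X fun γ w => γ w ∈ S where
  inv γ γ' τ w _ _ he _ h := by
    rw [he.self_of_nhds.1]; exact h
  eqn γ w₀ r hr hγ := by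
    obtain ⟨k, h, hh, hS⟩ := hS (γ w₀) (mem_univ _)
    have h1 := hγ w₀ (mem_ball_self hr)
    refine ⟨Fin k, inferInstance, fun i w => h i (γ w), fun i => h1.analyticAt (hh i), ?_⟩
    filter_upwards [h1.1.eventually hS] with w hw _
    exact hw

theorem isProp_rk : IsProp X (Rk1 X) where
  inv _ _ _ _ hτ hγ' he hw h := Rk1.comp hτ hγ' he hw h
  eqn _ _ _ hr hγ := rk1_eqn hr hγ

/-- the property holds identically or at no point, locally on `{w 0 = 0}` -/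
theorem IsProp.dich {Pr : (Cm 4 → X.pt) → Cm 4 → Prop} (hP : IsProp X Pr) {γ : Cm 4 → X.pt}
    {w₀ : Cm 4} {r : ℝ} (hr : 0 < r) (h0 : w₀ 0 = 0) (hγ : ∀ w ∈ ball w₀ r, HolAt X γ w) :
    ∃ r₁ > 0, ball w₀ r₁ ⊆ ball w₀ r ∧
      ((∀ w₁ ∈ ball w₀ r₁, w₁ 0 = 0 → ∀ᶠ w in 𝓝 w₁, w 0 = 0 → Pr γ w) ∨
      (∀ w₁ ∈ ball w₀ r₁, w₁ 0 = 0 → ¬ ∀ᶠ w in 𝓝 w₁, w 0 = 0 → Pr γ w)) := by
  obtain ⟨ι, _, F, hF, hFP⟩ := hP.eqn γ w₀ r hr hγ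
  obtain ⟨r₁, hr₁, hball⟩ := Metric.eventually_nhds_iff_ball.1
    ((isOpen_ball.eventually_mem (mem_ball_self hr)).and (hFP.and
      (eventually_all.2 fun i => (hF i).eventually_analyticAt)))
  refine ⟨r₁, hr₁, fun w hw => (hball w hw).1, ?_⟩
  by_cases hall : ∀ w ∈ ball w₀ r₁, w 0 = 0 → ∀ i, F i w = 0
  · left
    intro w₁ hw₁ _
    filter_upwards [isOpen_ball.mem_nhds hw₁] with w hw hw0
    exact ((hball w hw).2.1 hw0).2 (hall w hw hw0)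
  · right
    push Not at hall
    obtain ⟨w₂, hw₂, hw₂0, i, hi⟩ := hall
    intro w₁ hw₁ hw₁0 hev
    have h1 := freq_ne h0 (fun w hw => (hball w hw).2.2 i) hw₂ hw₂0 hw₁ hw₁0 hi
    obtain ⟨w, ⟨hw0, hwF⟩, hwP, hwb⟩ := (h1.and_eventually
      (hev.and (isOpen_ball.mem_nhds hw₁))).exists
    exact hwF (((hball w hwb).2.1 hw0).1 (hwP hw0) i)

theorem IsProp.trans {Pr : (Cm 4 → X.pt) → Cm 4 → Prop} (hP : IsProp X Pr) (hO : Dense O)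
    (h : NiceAtV O v T G ξ w₀ r γ i n x) (h' : NiceAtV O v T G ξ' w₀' r' γ' i' n' x')
    (heq : ξ w₀ = ξ' w₀') (hPr : ∀ᶠ w in 𝓝 w₀', w 0 = 0 → Pr γ' w) :
    ∀ᶠ w in 𝓝 w₀, w 0 = 0 → Pr γ w := by
  obtain ⟨τ, h1, h2, h3⟩ := nice_trans hO h h' heq
  have h4 : Tendsto τ (𝓝 w₀) (𝓝 w₀') := by
    have := h1.continuousAt.tendsto
    rwa [h2] at this
  filter_upwards [h1.eventually_analyticAt, h3.eventually_nhds, h4.eventually hPr,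
    h4.eventually (isOpen_ball.mem_nhds (mem_ball_self h'.par.pos))] with w k1 k2 k3 k4 hw0
  exact hP.inv γ γ' τ w k1 (h'.hol _ k4) k2 hw0 (k3 (k2.self_of_nhds.2 hw0))

/-- propagation along the connected set of good points -/
theorem IsProp.propagate {Pr : (Cm 4 → X.pt) → Cm 4 → Prop} (hP : IsProp X Pr) (hO : Dense O)
    (hconn : IsPreconnected (NSV O v T G)) (h : NiceAtV O v T G ξ w₀ r γ i n x)
    (hPr : ∀ᶠ w in 𝓝 w₀, w 0 = 0 → Pr γ w) (h' : NiceAtV O v T G ξ' w₀' r' γ' i' n' x') :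
    ∀ᶠ w in 𝓝 w₀', w 0 = 0 → Pr γ' w := by
  by_contra hne
  let A : Prop → Set Y := fun q => {y | ∃ ξ₁ w₁ r₁ γ₁ i₁ n₁ x₁,
    NiceAtV O v T G ξ₁ w₁ r₁ γ₁ i₁ n₁ x₁ ∧
    (∀ w₂ ∈ ball w₁ r₁, w₂ 0 = 0 → (q ↔ ∀ᶠ w in 𝓝 w₂, w 0 = 0 → Pr γ₁ w)) ∧
    y ∈ ξ₁ '' ball w₁ r₁}
  have hA : ∀ q, IsOpen (A q) := by
    intro q
    have : A q = ⋃ (ξ₁) (w₁) (r₁) (γ₁) (i₁) (n₁) (x₁)
        (_ : NiceAtV O v T G ξ₁ w₁ r₁ γ₁ i₁ n₁ x₁ ∧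
          ∀ w₂ ∈ ball w₁ r₁, w₂ 0 = 0 → (q ↔ ∀ᶠ w in 𝓝 w₂, w 0 = 0 → Pr γ₁ w)),
          ξ₁ '' ball w₁ r₁ := by
      ext y
      simp only [A, mem_ofPred_eq, mem_iUnion, exists_prop, and_assoc]
    rw [this]
    iterate 7 refine isOpen_iUnion fun _ => ?_
    exact isOpen_iUnion fun h1 => h1.1.isOpen_image
  have hmem : ∀ (ξ₁ : Cm 4 → Y) w₁ r₁ γ₁ i₁ n₁ x₁, NiceAtV O v T G ξ₁ w₁ r₁ γ₁ i₁ n₁ x₁ →
      ξ₁ w₁ ∈ A (∀ᶠ w in 𝓝 w₁, w 0 = 0 → Pr γ₁ w) := by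
    intro ξ₁ w₁ r₁ γ₁ i₁ n₁ x₁ h₁
    obtain ⟨r₂, hr₂, hs, h2⟩ := hP.dich h₁.par.pos h₁.par.zero h₁.hol
    refine ⟨ξ₁, w₁, r₂, γ₁, i₁, n₁, x₁, h₁.restrict h₁.par.zero hr₂ hs, ?_, w₁,
      mem_ball_self hr₂, rfl⟩
    rcases h2 with h2 | h2
    · intro w₂ hw₂ hw₂0
      exact iff_of_true (h2 w₁ (mem_ball_self hr₂) h₁.par.zero) (h2 w₂ hw₂ hw₂0)
    · intro w₂ hw₂ hw₂0
      exact iff_of_false (h2 w₁ (mem_ball_self hr₂) h₁.par.zero) (h2 w₂ hw₂ hw₂0)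
  have hcov : NSV O v T G ⊆ A True ∪ A False := by
    rintro y ⟨-, ξ₁, w₁, r₁, γ₁, i₁, n₁, x₁, h1, rfl⟩
    have h2 := hmem _ _ _ _ _ _ _ h1
    by_cases hc : ∀ᶠ w in 𝓝 w₁, w 0 = 0 → Pr γ₁ w
    · left
      rwa [eq_true hc] at h2
    · right
      rwa [eq_false hc] at h2
  have hns : ∀ (ξ₁ : Cm 4 → Y) w₁ r₁ γ₁ i₁ n₁ x₁, NiceAtV O v T G ξ₁ w₁ r₁ γ₁ i₁ n₁ x₁ →
      ξ₁ w₁ ∈ NSV O v T G := fun ξ₁ w₁ r₁ γ₁ i₁ n₁ x₁ h₁ =>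
    ⟨(h₁.par.mem _ (mem_ball_self h₁.par.pos)).2 h₁.par.zero, _, _, _, _, _, _, _, h₁, rfl⟩
  have h1 : (NSV O v T G ∩ A True).Nonempty := by
    refine ⟨ξ w₀, hns _ _ _ _ _ _ _ h, ?_⟩
    have := hmem _ _ _ _ _ _ _ h
    rwa [eq_true hPr] at this
  have h2 : (NSV O v T G ∩ A False).Nonempty := by
    refine ⟨ξ' w₀', hns _ _ _ _ _ _ _ h', ?_⟩
    have := hmem _ _ _ _ _ _ _ h'
    rwa [eq_false hne] at this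
  obtain ⟨y, ⟨hyG, -⟩, ⟨ξ₁, w₁, r₁, γ₁, i₁, n₁, x₁, g1, g2, w, hw, hwy⟩,
    ξ₂, w₂, r₂, γ₂, i₂, n₂, x₂, k1, k2, w', hw', hwy'⟩ := hconn _ _ (hA _) (hA _) hcov h1 h2
  obtain ⟨s₁, -, m1⟩ := g1.at hw (hwy ▸ hyG)
  obtain ⟨s₂, -, m2⟩ := k1.at hw' (hwy' ▸ hyG)
  have e1 := (g2 w hw m1.par.zero).1 trivial
  exact (k2 w' hw' m2.par.zero).2 (hP.trans hO m2 m1 (hwy'.trans hwy.symm) e1)

/-- the points of `G` whose image is in `Q` -/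
def AS (O : Set Y) (v : Y → X.pt) (T : ∀ e, (L e).ι → (N e).ι → Y → ℂ) (G : Set Y)
    (Q : Set X.pt) : Set Y :=
  {y | y ∈ G ∧ ∃ ξ w₀ r γ i n x, NiceAtV O v T G ξ w₀ r γ i n x ∧ ξ w₀ = y ∧ γ w₀ ∈ Q}

/-- the map of the good points to `X` -/
theorem exists_psi (hO : Dense O) (x₀ : X.pt) : ∃ ψ : Y → X.pt, ∀ (ξ : Cm 4 → Y) w₀ r γ i n x,
    NiceAtV O v T G ξ w₀ r γ i n x → ψ (ξ w₀) = γ w₀ := by
  classical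
  let P : Y → X.pt → Prop := fun y z => ∃ (ξ : Cm 4 → Y) (w₀ : Cm 4) (r : ℝ) (γ : Cm 4 → X.pt)
    (i : ∀ e, (L e).ι) (n : ∀ e, (N e).ι) (x : Fin k → ℚ), NiceAtV O v T G ξ w₀ r γ i n x ∧
      ξ w₀ = y ∧ γ w₀ = z
  refine ⟨fun y => if h : ∃ z, P y z then h.choose else x₀, fun ξ w₀ r γ i n x h => ?_⟩
  have hex : ∃ z, P (ξ w₀) z := ⟨γ w₀, ξ, w₀, r, γ, i, n, x, h, rfl, rfl⟩
  show (if h : ∃ z, P (ξ w₀) z then h.choose else x₀) = γ w₀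
  rw [dif_pos hex]
  obtain ⟨ξ', w₀', r', γ', i', n', x', h', h1, h2⟩ := hex.choose_spec
  rw [← h2]
  exact nice_val hO h' h h1

theorem psi_cont {ψ : Y → X.pt} (hψ : ∀ (ξ : Cm 4 → Y) w₀ r γ i n x,
    NiceAtV O v T G ξ w₀ r γ i n x → ψ (ξ w₀) = γ w₀) : ContinuousOn ψ (NSV O v T G) := by
  rintro _ ⟨-, ξ, w₀, r, γ, i, n, x, h, rfl⟩
  have hw₀ := mem_ball_self (x := w₀) h.par.pos
  intro U hU
  rw [hψ _ _ _ _ _ _ _ h] at hU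
  obtain ⟨r₁, hr₁, hball⟩ := Metric.eventually_nhds_iff_ball.1
    ((isOpen_ball.eventually_mem hw₀).and ((h.hol w₀ hw₀).1.eventually_mem hU))
  have h1 : ξ '' ball w₀ r₁ ∈ 𝓝 (ξ w₀) :=
    (h.par.openMap _ (fun w hw => (hball w hw).1) isOpen_ball).mem_nhds
      ⟨w₀, mem_ball_self hr₁, rfl⟩
  rw [mem_map]
  filter_upwards [mem_nhdsWithin_of_mem_nhds h1, self_mem_nhdsWithin] with y hy hyN
  obtain ⟨w, hw, rfl⟩ := hy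
  obtain ⟨s, -, m⟩ := h.at (hball w hw).1 hyN.1
  show ψ (ξ w) ∈ U
  rw [hψ _ _ _ _ _ _ _ m]
  exact (hball w hw).2

section conn

variable [T2Space Y] [CompactSpace Y] [IsManifold 𝓘(ℂ, Cm 4) ω Y]

/-- the set of the points of `G` with image in `S \ Θ` is connected -/
theorem as_conn (hConn : StConn) [Nonempty Y] {V : CSp} {vV : Y → V.pt}
    (hvV : IsOpenEmb V univ vV) (hG : IsHyp G) (hGc : IsPreconnected G)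
    (hthin : DimLe V 2 (vV '' (G \ NSV O v T G))) (hO : Dense O) {S Θ : Set X.pt}
    (hS : IsAn X univ S) (hΘ : IsClosed Θ) (hΘ1 : DimLe X 1 Θ)
    (h : NiceAtV O v T G ξ w₀ r γ i n x) (hγS : ∀ᶠ w in 𝓝 w₀, w 0 = 0 → γ w ∈ S)
    (hrk : ¬ ∀ᶠ w in 𝓝 w₀, w 0 = 0 → Rk1 X γ w) : IsPreconnected (AS O v T G (S \ Θ)) := by
  have hne : Nonempty V.pt := ⟨vV (Classical.arbitrary Y)⟩
  have hcon := (NSV_conn hConn hvV hG hGc hthin).2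
  -- everything is mapped to `S`
  have hall : ∀ (ξ₁ : Cm 4 → Y) w₁ r₁ γ₁ i₁ n₁ x₁, NiceAtV O v T G ξ₁ w₁ r₁ γ₁ i₁ n₁ x₁ →
      ∀ w ∈ ball w₁ r₁, w 0 = 0 → γ₁ w ∈ S := by
    intro ξ₁ w₁ r₁ γ₁ i₁ n₁ x₁ h₁ w hw hw0
    obtain ⟨s, -, m⟩ := h₁.at hw ((h₁.par.mem w hw).2 hw0)
    exact ((isProp_an hS).propagate hO hcon h hγS m).self_of_nhds hw0
  have hrk' : ∀ (ξ₁ : Cm 4 → Y) w₁ r₁ γ₁ i₁ n₁ x₁, NiceAtV O v T G ξ₁ w₁ r₁ γ₁ i₁ n₁ x₁ →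
      ¬ ∀ᶠ w in 𝓝 w₁, w 0 = 0 → Rk1 X γ₁ w := fun ξ₁ w₁ r₁ γ₁ i₁ n₁ x₁ h₁ h2 =>
    hrk (isProp_rk.propagate hO hcon h₁ h2 h)
  refine (set_conn hConn hvV hG hGc (fun y hy => hy.1) ?_ ?_).2
  · -- the complement is thin
    have h1 : DimLe V 2 (vV '' ((G \ AS O v T G (S \ Θ)) ∩ NSV O v T G)) := by
      apply dimLe_of_local
      rintro _ ⟨_, ⟨-, hyG, ξ₁, w₁, r₁, γ₁, i₁, n₁, x₁, h₁, rfl⟩, rfl⟩
      obtain ⟨ι, _, F, hF, hFR⟩ := rk1_eqn h₁.par.pos h₁.hol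
      obtain ⟨r₂, hr₂, hball⟩ := Metric.eventually_nhds_iff_ball.1
        ((isOpen_ball.eventually_mem (mem_ball_self h₁.par.pos)).and (hFR.and
          (eventually_all.2 fun a => (hF a).eventually_analyticAt)))
      have hs : ball w₁ r₂ ⊆ ball w₁ r₁ := fun w hw => (hball w hw).1
      -- a function which does not vanish identically
      obtain ⟨a, w₃, hw₃, hw₃0, hFa⟩ : ∃ a, ∃ w₃ ∈ ball w₁ r₂, w₃ 0 = 0 ∧ F a w₃ ≠ 0 := by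
        by_contra hcon'
        push Not at hcon'
        refine hrk' _ _ _ _ _ _ _ h₁ ?_
        filter_upwards [isOpen_ball.mem_nhds (mem_ball_self hr₂)] with w hw hw0
        exact ((hball w hw).2.1 hw0).2 fun a => hcon' a w hw hw0
      refine ⟨vV '' (ξ₁ '' ball w₁ r₂), hvV.isOpenMap _ (subset_univ _)
        (h₁.par.openMap _ hs isOpen_ball), ⟨_, ⟨w₁, mem_ball_self hr₂, rfl⟩, rfl⟩, ?_⟩
      have hz := dimLe_zero hvV h₁.par hs (fun w hw => (hball w hw).2.2 a) ⟨w₃, hw₃, hw₃0, hFa⟩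
      -- the points where the rank is two
      have hr2 : DimLe V 2 ((fun w => vV (ξ₁ w)) ''
          {w | w ∈ ball w₁ r₂ ∧ w 0 = 0 ∧ ¬ Rk1 X γ₁ w ∧ γ₁ w ∈ Θ}) := by
        apply dimLe_of_local
        rintro _ ⟨w, ⟨hw, hw0, hwR, -⟩, rfl⟩
        simp only [Rk1] at hwR
        push Not at hwR
        obtain ⟨g, g', hg, hg', u, u', hu, hu', hne⟩ := hwR
        obtain ⟨r₃, hr₃, hs₃, hd⟩ := thin_pre hvV h₁.par hΘ1 h₁.hol (hs hw) hg hg' hu hu' hne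
        refine ⟨vV '' (ξ₁ '' ball w r₃), hvV.isOpenMap _ (subset_univ _)
          (h₁.par.openMap _ hs₃ isOpen_ball), ⟨_, ⟨w, mem_ball_self hr₃, rfl⟩, rfl⟩, hd.mono ?_⟩
        rintro _ ⟨⟨_, ⟨z, hz, rfl⟩, rfl⟩, z', ⟨hz', hz'0, -, hz'Θ⟩, hzz⟩
        have h4 : ξ₁ z' = ξ₁ z := hvV.inj (mem_univ _) (mem_univ _) hzz
        have h5 : z' = z := h₁.par.inj (hs hz') (hs₃ hz) h4
        subst h5
        exact ⟨z', ⟨hz, hz'0, hz'Θ⟩, rfl⟩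
      refine (hz.union hr2).mono ?_
      rintro _ ⟨⟨_, ⟨w, hw, rfl⟩, rfl⟩, y, ⟨⟨hy1, hy2⟩, -⟩, hyw⟩
      have hyw' : y = ξ₁ w := hvV.inj (mem_univ _) (mem_univ _) hyw
      subst hyw'
      have hw0 : w 0 = 0 := (h₁.par.mem w (hs hw)).1 hy1
      by_cases hFw : F a w = 0
      · exact Or.inl ⟨w, ⟨hw, hw0, hFw⟩, rfl⟩
      · refine Or.inr ⟨w, ⟨hw, hw0, fun h => hFw (((hball w hw).2.1 hw0).1 h a), ?_⟩, rfl⟩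
        by_contra hΘw
        obtain ⟨s, -, m⟩ := h₁.at (hs hw) hy1
        exact hy2 ⟨hy1, _, _, _, _, _, _, _, m, rfl, hall _ _ _ _ _ _ _ h₁ w (hs hw) hw0, hΘw⟩
    refine (hthin.union h1).mono ?_
    rintro _ ⟨y, ⟨hy1, hy2⟩, rfl⟩
    by_cases hy : y ∈ NSV O v T G
    · exact Or.inr ⟨y, ⟨⟨hy1, hy2⟩, hy⟩, rfl⟩
    · exact Or.inl ⟨y, ⟨hy1, hy⟩, rfl⟩
  · rintro y ⟨hy, ξ₁, w₁, r₁, γ₁, i₁, n₁, x₁, h₁, rfl, -, h₁Θ⟩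
    obtain ⟨r₂, hr₂, hball⟩ := Metric.eventually_nhds_iff_ball.1
      ((isOpen_ball.eventually_mem (mem_ball_self h₁.par.pos)).and
        ((h₁.hol w₁ (mem_ball_self h₁.par.pos)).1.eventually_mem (hΘ.isOpen_compl.mem_nhds h₁Θ)))
    have hs : ball w₁ r₂ ⊆ ball w₁ r₁ := fun w hw => (hball w hw).1
    refine ⟨ξ₁ '' ball w₁ r₂, h₁.par.openMap _ hs isOpen_ball, ⟨w₁, mem_ball_self hr₂, rfl⟩, ?_⟩
    rintro _ ⟨⟨w, hw, rfl⟩, hG⟩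
    obtain ⟨s, -, m⟩ := h₁.at (hs hw) hG
    exact ⟨hG, _, _, _, _, _, _, _, m, rfl, hall _ _ _ _ _ _ _ h₁ w (hs hw) m.par.zero,
      (hball w hw).2⟩

/-- **(INJ)** Two germs of the same `G` are centred in the same component of `S \ Θ`. -/
theorem inj_comp (hConn : StConn) [Nonempty Y] {V : CSp} {vV : Y → V.pt}
    (hvV : IsOpenEmb V univ vV) (hG : IsHyp G) (hGc : IsPreconnected G)
    (hthin : DimLe V 2 (vV '' (G \ NSV O v T G))) (hO : Dense O) {S Θ : Set X.pt}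
    (hS : IsAn X univ S) (hΘ : IsClosed Θ) (hΘ1 : DimLe X 1 Θ)
    (h : NiceAtV O v T G ξ w₀ r γ i n x) (hγS : ∀ᶠ w in 𝓝 w₀, w 0 = 0 → γ w ∈ S)
    (hrk : ¬ ∀ᶠ w in 𝓝 w₀, w 0 = 0 → Rk1 X γ w) (h0 : γ w₀ ∉ Θ)
    (h' : NiceAtV O v T G ξ' w₀' r' γ' i' n' x') (h0' : γ' w₀' ∈ S \ Θ) :
    γ' w₀' ∈ connectedComponentIn (S \ Θ) (γ w₀) := by
  have hA := as_conn hConn hvV hG hGc hthin hO hS hΘ hΘ1 h hγS hrk
  obtain ⟨ψ, hψ⟩ := exists_psi (v := v) (T := T) (G := G) hO (γ w₀)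
  have hsub : AS O v T G (S \ Θ) ⊆ NSV O v T G := by
    rintro y ⟨hy, ξ₁, w₁, r₁, γ₁, i₁, n₁, x₁, h₁, h2, -⟩
    exact ⟨hy, _, _, _, _, _, _, _, h₁, h2⟩
  have h1 := hA.image ψ ((psi_cont hψ).mono hsub)
  have h2 : ψ '' AS O v T G (S \ Θ) ⊆ S \ Θ := by
    rintro _ ⟨y, ⟨hy, ξ₁, w₁, r₁, γ₁, i₁, n₁, x₁, h₁, rfl, h3⟩, rfl⟩
    rw [hψ _ _ _ _ _ _ _ h₁]
    exact h3
  have hmem : ∀ (ξ₁ : Cm 4 → Y) w₁ r₁ γ₁ i₁ n₁ x₁, NiceAtV O v T G ξ₁ w₁ r₁ γ₁ i₁ n₁ x₁ →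
      γ₁ w₁ ∈ S \ Θ → γ₁ w₁ ∈ ψ '' AS O v T G (S \ Θ) := by
    intro ξ₁ w₁ r₁ γ₁ i₁ n₁ x₁ h₁ h3
    exact ⟨ξ₁ w₁, ⟨(h₁.par.mem _ (mem_ball_self h₁.par.pos)).2 h₁.par.zero, _, _, _, _, _, _, _,
      h₁, rfl, h3⟩, hψ _ _ _ _ _ _ _ h₁⟩
  have h00 : γ w₀ ∈ S \ Θ := ⟨hγS.self_of_nhds h.par.zero, h0⟩
  exact h1.subset_connectedComponentIn (hmem _ _ _ _ _ _ _ h h00) h2
    (hmem _ _ _ _ _ _ _ h' h0')

end conn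

end Vale.Agent.P277.H615.I
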