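import Vale.Agent.P277.H615.I.GermAt
import Vale.Agent.P277.H615.I.Inj

/-!
# P277, (I3): the components of the flipped surfaces, and the exceptional divisors over them
-/

open scoped Manifold ContDiff Topology
open Vale.Agent.P272.K Vale.Agent.P285.H281.FD Vale.Agent.P267.H175 Set Filter Metric

noncomputable section

namespace Vale.Agent.P277.H615.I

open Vale.Agent.P277 Vale.Agent.P277.T2 Vale.Agent.P277.H335 Vale.Agent.P277.H615

variable {Y : Type} [TopologicalSpace Y] [T2Space Y] [CompactSpace Y] [ChartedSpace (Cm 4) Y]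
  [IsManifold 𝓘(ℂ, Cm 4) ω Y]

/-- **(I3)** The components of `S \ Θ` correspond to different exceptional divisors `G l`, `l ∈ E`:
the points `c i`, `i < E.card`, meet all the components of `S \ Θ`, and for every `l ∈ E` there is a
germ of `G l` centred in `S`, with the orders `Q e * (m e - κ e)`, `∑ e, ρ e * κ e < 1`. -/
theorem exists_comps (hConn : StConn) (hTD : StTD) (hDis : T2.StDis) [Nonempty Y] {k : ℕ}
    {V X : CSp} {vV : Y → V.pt} (hvV : IsOpenEmb V univ vV) (hsurj : Function.Surjective vV)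
    {n : ℕ} {G : Fin n → Set Y} (hG : ∀ l, IsHyp (G l)) (hcl : ∀ l, IsClosed (G l))
    (hGc : ∀ l, IsPreconnected (G l))
    {χ : Chart 4 Y → Cm 4 → Matrix (Fin 4) (Fin 4) ℂ} (hχ : IsKahler χ)
    {M : Fin k → Bd Y} (hnef : ∀ e, Nef χ (M e)) {m : Fin k → ℕ}
    {L : Fin k → Bd X.pt} {c : Fin k → ℕ} {O : Set Y} {v : Y → X.pt} {P Q : Fin k → ℕ}
    {T : ∀ e, (L e).ι → (((Bd.can 4 Y).pow (m e)).mul (M e)).ι → Y → ℂ} {ρ : Fin k → ℝ}
    (hρ : ∀ e, 0 < ρ e) (hsum : ∑ e, ρ e * m e = 1)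
    {S : Set X.pt} (hk : 1 ≤ k) (hM : ∀ e, IsLB 4 (M e))
    (hTw : TwV vV (⋃ l, G l) (fun e => ((Bd.can 4 Y).pow (m e)).mul (M e)) X L c O v P Q T ρ S)
    (hthin : ∀ l, DimLe V 2 (vV '' (G l \ NSV O v T (G l)))) (hO : Dense O)
    (hSan : IsAn X univ S) (hSO : S ⊆ (v '' O)ᶜ) {Θ : Set X.pt} (hΘ : IsClosed Θ)
    (hΘ1 : DimLe X 1 Θ) (hreg : ∀ x ∈ S \ Θ, IsReg 4 X x ∧ IsSurfX X S x) :
    ∃ (E : Finset (Fin n)) (c : Fin E.card → X.pt),
      (∀ x ∈ S \ Θ, ∃ i, x ∈ connectedComponentIn (S \ Θ) (c i)) ∧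
      ∀ l ∈ E, ∃ ξ w₀ r γ i ν x, NiceAtV O v T (G l) ξ w₀ r γ i ν x ∧
        (∀ w ∈ ball w₀ r, w 0 = 0 → γ w ∈ S) ∧
        ∃ κ : Fin k → ℕ, (∀ e, x e = Q e * (m e - κ e)) ∧ ∑ e, ρ e * κ e < 1 := by
  classical
  have hcS : ∀ x₀, connectedComponentIn (S \ Θ) x₀ ⊆ S \ Θ := fun x₀ =>
    connectedComponentIn_subset _ _
  -- the germs
  have hex : ∀ x₀ : {x // x ∈ S \ Θ}, ∃ l ξ w₀ r γ i ν x, NiceAtV O v T (G l) ξ w₀ r γ i ν x ∧
      (∀ w ∈ ball w₀ r, w 0 = 0 → γ w ∈ connectedComponentIn (S \ Θ) x₀.1) ∧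
      (∀ w ∈ ball w₀ r, ¬ Rk1 X γ w) ∧
      ∃ κ : Fin k → ℕ, (∀ e, x e = Q e * (m e - κ e)) ∧ ∑ e, ρ e * κ e < 1 := fun x₀ =>
    exists_datumAt hTD hDis hvV hsurj hG hcl hχ hnef hρ hsum hk hM hTw hSO hΘ x₀.2
      (hreg _ x₀.2).1 (hreg _ x₀.2).2
  choose l ξ w₀ r γ i ν x hn hcomp hrk hκ using hex
  -- the injectivity
  have hinj : ∀ a b : {x // x ∈ S \ Θ}, l a = l b →
      b.1 ∈ connectedComponentIn (S \ Θ) a.1 := by
    intro a b hab
    have hna := hn a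
    rw [hab] at hna
    have hwa := mem_ball_self (x := w₀ a) hna.par.pos
    have hwb := mem_ball_self (x := w₀ b) (hn b).par.pos
    have h1 := hcomp a _ hwa hna.par.zero
    have h2 := hcomp b _ hwb (hn b).par.zero
    have h3 := inj_comp hConn hvV (hG (l b)) (hGc (l b)) (hthin (l b)) hO hSan hΘ hΘ1 hna (by
      filter_upwards [isOpen_ball.mem_nhds hwa] with w hw hw0
      exact (hcS _ (hcomp a w hw hw0)).1) (fun h => hrk a _ hwa (h.self_of_nhds hna.par.zero))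
      (hcS _ h1).2 (hn b) (hcS _ h2)
    rw [← connectedComponentIn_eq h1] at h3
    rw [connectedComponentIn_eq h3, ← connectedComponentIn_eq h2]
    exact mem_connectedComponentIn b.2
  -- the set `E`
  let E : Finset (Fin n) := Finset.univ.filter fun a => ∃ b, l b = a
  have hE : ∀ a ∈ E, ∃ b, l b = a := fun a ha => (Finset.mem_filter.1 ha).2
  choose b hb using hE
  let eE := E.equivFin
  refine ⟨E, fun j => (b _ (eE.symm j).2).1, fun y hy => ?_, fun a ha => ?_⟩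
  · have h1 : l ⟨y, hy⟩ ∈ E := Finset.mem_filter.2 ⟨Finset.mem_univ _, _, rfl⟩
    refine ⟨eE ⟨_, h1⟩, ?_⟩
    have h2 : ∀ z : E, z = ⟨_, h1⟩ → y ∈ connectedComponentIn (S \ Θ) (b z.1 z.2).1 := by
      rintro z rfl
      exact hinj (b _ h1) ⟨y, hy⟩ (hb _ h1)
    exact h2 _ (eE.symm_apply_apply _)
  · obtain ⟨d, rfl⟩ : ∃ d, l d = a := ⟨_, hb a ha⟩
    exact ⟨ξ d, w₀ d, r d, γ d, i d, ν d, x d, hn d, fun w hw hw0 => (hcS _ (hcomp d w hw hw0)).1,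
      hκ d⟩

end Vale.Agent.P277.H615.I
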