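import Vale.Agent.P277.H615.OrdStep

/-!
# P277, (INJ): the rank of a germ along `{w 0 = 0}`, and the preimages of sets of dimension one
-/

open scoped Manifold ContDiff Topology
open Vale.Agent.P272.K Vale.Agent.P285.H281.FD Vale.Agent.P267.H175 Set Filter Metric

noncomputable section

namespace Vale.Agent.P277.H615.I

open Vale.Agent.P277 Vale.Agent.P277.T2 Vale.Agent.P277.H335 Vale.Agent.P277.H615

/-- the restriction of `γ` to `{w 0 = 0}` has rank `≤ 1` at `w` -/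
def Rk1 (X : CSp) (γ : Cm 4 → X.pt) (w : Cm 4) : Prop :=
  ∀ g g' : X.pt → ℂ, X.Hol g (γ w) → X.Hol g' (γ w) → ∀ u u' : Cm 4, u 0 = 0 → u' 0 = 0 →
    fderiv ℂ (fun z => g (γ z)) w u * fderiv ℂ (fun z => g' (γ z)) w u' =
      fderiv ℂ (fun z => g (γ z)) w u' * fderiv ℂ (fun z => g' (γ z)) w u

theorem bilin {A B : Cm 4 →L[ℂ] ℂ}
    (h : ∀ k l : Fin 3, A (Pi.single k.succ 1) * B (Pi.single l.succ 1) =
      A (Pi.single l.succ 1) * B (Pi.single k.succ 1)) {u u' : Cm 4} (hu : u 0 = 0)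
    (hu' : u' 0 = 0) : A u * B u' = A u' * B u := by
  have key : ∀ (C : Cm 4 →L[ℂ] ℂ) (x : Cm 4), x 0 = 0 →
      C x = ∑ k : Fin 3, x k.succ * C (Pi.single k.succ 1) := by
    intro C x hx
    have h1 : C x = ∑ i : Fin 4, x i * C (Pi.single i 1) := by
      have h2 := LinearMap.pi_apply_eq_sum_univ (C : Cm 4 →ₗ[ℂ] ℂ) x
      simp only [ContinuousLinearMap.coe_coe, smul_eq_mul] at h2
      rw [h2]
      refine Finset.sum_congr rfl fun i _ => ?_
      congr 2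
      ext j
      simp [Pi.single_apply, eq_comm]
    rw [h1, Fin.sum_univ_succ, hx, zero_mul, zero_add]
  rw [key A u hu, key B u' hu', key A u' hu', key B u hu, Finset.sum_mul_sum, Finset.sum_mul_sum,
    Finset.sum_comm]
  refine Finset.sum_congr rfl fun l _ => Finset.sum_congr rfl fun k _ => ?_
  linear_combination u k.succ * u' l.succ * h k l

theorem comb {n : ℕ} {x y : Cm n} (h : ∀ a b, x a * y b = y a * x b) (C C' : Cm n →L[ℂ] ℂ) :
    C x * C' y = C y * C' x := by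
  have key : ∀ (C : Cm n →L[ℂ] ℂ) (x : Cm n), C x = ∑ i, x i * C (Pi.single i 1) := by
    intro C x
    have h2 := LinearMap.pi_apply_eq_sum_univ (C : Cm n →ₗ[ℂ] ℂ) x
    simp only [ContinuousLinearMap.coe_coe, smul_eq_mul] at h2
    rw [h2]
    refine Finset.sum_congr rfl fun i _ => ?_
    congr 2
    ext j
    simp [Pi.single_apply, eq_comm]
  rw [key C x, key C' y, key C y, key C' x, Finset.sum_mul_sum, Finset.sum_mul_sum]
  refine Finset.sum_congr rfl fun a _ => Finset.sum_congr rfl fun b _ => ?_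
  linear_combination C (Pi.single a 1) * C' (Pi.single b 1) * h a b

theorem analyticAt_fderiv_apply' {F : Cm 4 → ℂ} {w : Cm 4} (hF : AnalyticAt ℂ F w) (u : Cm 4) :
    AnalyticAt ℂ (fun z => fderiv ℂ F z u) w :=
  ((ContinuousLinearMap.apply ℂ ℂ u).analyticAt _).fun_comp hF.fderiv

/-- the condition on the rank is given by analytic equations -/
theorem rk1_eqn {X : CSp} {γ : Cm 4 → X.pt} {w₀ : Cm 4} {r : ℝ} (hr : 0 < r)
    (hγ : ∀ w ∈ ball w₀ r, HolAt X γ w) :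
    ∃ (ι : Type) (_ : Finite ι) (F : ι → Cm 4 → ℂ), (∀ i, AnalyticAt ℂ (F i) w₀) ∧
      ∀ᶠ w in 𝓝 w₀, w 0 = 0 → (Rk1 X γ w ↔ ∀ i, F i w = 0) := by
  obtain ⟨N, V, u, hx, hu⟩ := exists_isCoord X (γ w₀)
  have hw₀ : w₀ ∈ ball w₀ r := mem_ball_self hr
  set D : Fin N → Cm 4 → ℂ := fun a w => u a (γ w) with hD
  have hDa : ∀ a, AnalyticAt ℂ (D a) w₀ := fun a => (hγ w₀ hw₀).analyticAt (hu.hol a _ hx)
  refine ⟨Fin N × Fin N × Fin 3 × Fin 3, inferInstance, fun p w =>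
    fderiv ℂ (D p.1) w (Pi.single p.2.2.1.succ 1) * fderiv ℂ (D p.2.1) w (Pi.single p.2.2.2.succ 1) -
    fderiv ℂ (D p.1) w (Pi.single p.2.2.2.succ 1) * fderiv ℂ (D p.2.1) w (Pi.single p.2.2.1.succ 1),
    fun p => ((analyticAt_fderiv_apply' (hDa _) _).mul (analyticAt_fderiv_apply' (hDa _) _)).sub
      ((analyticAt_fderiv_apply' (hDa _) _).mul (analyticAt_fderiv_apply' (hDa _) _)), ?_⟩
  filter_upwards [isOpen_ball.mem_nhds hw₀, (hγ w₀ hw₀).1.eventually_mem (hu.isOpen.mem_nhds hx)]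
    with w hw hwV hw0
  have hDw : ∀ a, AnalyticAt ℂ (D a) w := fun a => (hγ w hw).analyticAt (hu.hol a _ hwV)
  constructor
  · rintro h ⟨a, b, k, l⟩
    exact sub_eq_zero.2 (h (u a) (u b) (hu.hol a _ hwV) (hu.hol b _ hwV) _ _
      (by simp) (by simp))
  · intro h g g' hg hg' x y hx0 hy0
    have h1 : ∀ a b, fderiv ℂ (D a) w x * fderiv ℂ (D b) w y =
        fderiv ℂ (D a) w y * fderiv ℂ (D b) w x := fun a b =>
      bilin (fun k l => sub_eq_zero.1 (h (a, b, k, l))) hx0 hy0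
    have h2 : ∀ g : X.pt → ℂ, X.Hol g (γ w) → ∃ C : Cm N →L[ℂ] ℂ, ∀ z,
        fderiv ℂ (fun z => g (γ z)) w z = C (fun a => fderiv ℂ (D a) w z) := by
      intro g hg
      obtain ⟨G, hG, hGe⟩ := (hu.iff _ hwV g).1 hg
      refine ⟨fderiv ℂ G (fun a => u a (γ w)), fun z => ?_⟩
      have h3 : (fun z => g (γ z)) =ᶠ[𝓝 w] fun z => G (fun a => D a z) :=
        (hγ w hw).1.eventually hGe
      rw [h3.fderiv_eq]
      have h4 : HasFDerivAt (fun z => fun a => D a z)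
          (ContinuousLinearMap.pi fun a => fderiv ℂ (D a) w) w :=
        hasFDerivAt_pi.2 fun a => (hDw a).differentiableAt.hasFDerivAt
      have h5 : HasFDerivAt (fun z => G (fun a => D a z))
          ((fderiv ℂ G (fun a => u a (γ w))).comp
            (ContinuousLinearMap.pi fun a => fderiv ℂ (D a) w)) w :=
        HasFDerivAt.comp (g := G) w hG.differentiableAt.hasFDerivAt h4
      rw [h5.fderiv]
      rfl
    obtain ⟨C, hC⟩ := h2 g hg
    obtain ⟨C', hC'⟩ := h2 g' hg'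
    rw [hC, hC, hC', hC']
    exact comb h1 C C'

/-- invariance under changes of coordinates -/
theorem Rk1.comp {X : CSp} {γ γ' : Cm 4 → X.pt} {τ : Cm 4 → Cm 4} {w : Cm 4}
    (hτ : AnalyticAt ℂ τ w) (hγ' : HolAt X γ' (τ w))
    (he : ∀ᶠ z in 𝓝 w, γ z = γ' (τ z) ∧ (z 0 = 0 → τ z 0 = 0)) (hw : w 0 = 0)
    (h : Rk1 X γ' (τ w)) : Rk1 X γ w := by
  intro g g' hg hg' x y hx hy
  rw [he.self_of_nhds.1] at hg hg'
  have h1 : ∀ g : X.pt → ℂ, X.Hol g (γ' (τ w)) → ∀ z, fderiv ℂ (fun z => g (γ z)) w z =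
      fderiv ℂ (fun z => g (γ' z)) (τ w) (fderiv ℂ τ w z) := by
    intro g hg z
    have h2 : (fun z => g (γ z)) =ᶠ[𝓝 w] fun z => g (γ' (τ z)) := by
      filter_upwards [he] with z hz
      rw [hz.1]
    rw [h2.fderiv_eq]
    have h3 : HasFDerivAt (fun z => g (γ' (τ z)))
        ((fderiv ℂ (fun z => g (γ' z)) (τ w)).comp (fderiv ℂ τ w)) w :=
      HasFDerivAt.comp (g := fun z => g (γ' z)) w
        (hγ'.analyticAt hg).differentiableAt.hasFDerivAt hτ.differentiableAt.hasFDerivAt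
    rw [h3.fderiv]
    rfl
  have h4 : ∀ z : Cm 4, z 0 = 0 → fderiv ℂ τ w z 0 = 0 := by
    intro z hz
    have h5 : HasFDerivAt (fun w => τ w 0)
        ((ContinuousLinearMap.proj (R := ℂ) (φ := fun _ : Fin 4 => ℂ) 0).comp (fderiv ℂ τ w)) w :=
      HasFDerivAt.comp (g := fun w : Cm 4 => w 0) w
        (ContinuousLinearMap.proj (R := ℂ) (φ := fun _ : Fin 4 => ℂ) 0).hasFDerivAt
        hτ.differentiableAt.hasFDerivAt
    have h6 : HasDerivAt (fun t : ℂ => w + t • z) z 0 := by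
      simpa using ((hasDerivAt_id (0 : ℂ)).smul_const z).const_add w
    have h7 : HasDerivAt (fun t : ℂ => τ (w + t • z) 0) (fderiv ℂ τ w z 0) 0 := by
      have h8 : HasFDerivAt (fun w => τ w 0)
        ((ContinuousLinearMap.proj (R := ℂ) (φ := fun _ : Fin 4 => ℂ) 0).comp (fderiv ℂ τ w))
          (w + (0 : ℂ) • z) := by simpa using h5
      exact h8.comp_hasDerivAt (0 : ℂ) h6
    have h9 : (fun t : ℂ => τ (w + t • z) 0) =ᶠ[𝓝 0] fun _ => 0 := by
      have h10 : ContinuousAt (fun t : ℂ => w + t • z) 0 := h6.continuousAt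
      have h11 : Tendsto (fun t : ℂ => w + t • z) (𝓝 0) (𝓝 w) := by
        have := h10.tendsto
        simpa using this
      filter_upwards [h11.eventually he] with t ht
      refine ht.2 ?_
      show w 0 + t * z 0 = 0
      rw [hw, hz, mul_zero, add_zero]
    have h12 : HasDerivAt (fun t : ℂ => τ (w + t • z) 0) 0 0 :=
      (hasDerivAt_const (0 : ℂ) (0 : ℂ)).congr_of_eventuallyEq h9
    exact h7.unique h12
  rw [h1 g hg, h1 g hg, h1 g' hg', h1 g' hg']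
  exact h g g' hg hg' _ _ (h4 x hx) (h4 y hy)

/-- completion to coordinates -/
theorem exists_compl3 {a b : Cm 4 →L[ℂ] ℂ} {u u' : Cm 4} (hu : u 0 = 0) (hu' : u' 0 = 0)
    (hne : a u * b u' ≠ a u' * b u) :
    ∃ d : Cm 4 →L[ℂ] ℂ, ∀ v : Cm 4, v 0 = 0 → a v = 0 → b v = 0 → d v = 0 → v = 0 := by
  have hfr : Module.finrank ℂ (Cm 4 →L[ℂ] ℂ) = 4 := by
    rw [← (LinearMap.toContinuousLinearMap : (Cm 4 →ₗ[ℂ] ℂ) ≃ₗ[ℂ] (Cm 4 →L[ℂ] ℂ)).finrank_eq,
      Module.finrank_linearMap]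
    simp
  have : FiniteDimensional ℂ (Cm 4 →L[ℂ] ℂ) :=
    LinearEquiv.finiteDimensional
      (LinearMap.toContinuousLinearMap : (Cm 4 →ₗ[ℂ] ℂ) ≃ₗ[ℂ] (Cm 4 →L[ℂ] ℂ))
  set P : Cm 4 →L[ℂ] ℂ := ContinuousLinearMap.proj (R := ℂ) (φ := fun _ : Fin 4 => ℂ) 0 with hP
  have hPv : ∀ v, P v = v 0 := fun v => rfl
  have hli : LinearIndependent ℂ ![P, a, b] := by
    rw [Fintype.linearIndependent_iff]
    intro c hc
    rw [Fin.sum_univ_three] at hc
    have h1 : ∀ v, c 0 * P v + c 1 * a v + c 2 * b v = 0 := fun v => by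
      have := congrArg (fun L : Cm 4 →L[ℂ] ℂ => L v) hc
      simpa using this
    have h2 := h1 u
    have h3 := h1 u'
    rw [hPv, hu, mul_zero, zero_add] at h2
    rw [hPv, hu', mul_zero, zero_add] at h3
    have h4 : a u * b u' - a u' * b u ≠ 0 := sub_ne_zero.2 hne
    have hc1 : c 1 = 0 := by
      have : c 1 * (a u * b u' - a u' * b u) = 0 := by linear_combination b u' * h2 - b u * h3
      exact (mul_eq_zero.1 this).resolve_right h4
    have hc2 : c 2 = 0 := by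
      have : c 2 * (a u * b u' - a u' * b u) = 0 := by linear_combination a u * h3 - a u' * h2
      exact (mul_eq_zero.1 this).resolve_right h4
    have h5 := h1 (Pi.single 0 1)
    rw [hPv, hc1, hc2] at h5
    have hc0 : c 0 = 0 := by simpa using h5
    intro i
    fin_cases i
    · exact hc0
    · exact hc1
    · exact hc2
  obtain ⟨d, hd⟩ := exists_linearIndependent_cons_of_lt_finrank hli (by rw [hfr]; norm_num)
  refine ⟨d, fun v h0 ha hb hd' => ?_⟩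
  have hspan := hd.span_eq_top_of_card_eq_finrank' (by simp [hfr])
  have hle : Submodule.span ℂ (range (Fin.cons d ![P, a, b] : Fin 4 → Cm 4 →L[ℂ] ℂ)) ≤
      LinearMap.ker ((ContinuousLinearMap.apply ℂ ℂ v : (Cm 4 →L[ℂ] ℂ) →L[ℂ] ℂ) :
        (Cm 4 →L[ℂ] ℂ) →ₗ[ℂ] ℂ) := by
    rw [Submodule.span_le]
    rintro _ ⟨i, rfl⟩
    fin_cases i
    · exact hd'
    · exact h0
    · exact ha
    · exact hb
  funext i
  have h1 : (ContinuousLinearMap.proj (R := ℂ) (φ := fun _ : Fin 4 => ℂ) i : Cm 4 →L[ℂ] ℂ) ∈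
      Submodule.span ℂ (range (Fin.cons d ![P, a, b] : Fin 4 → Cm 4 →L[ℂ] ℂ)) := by
    have h2 : Submodule.span ℂ (range (Fin.cons d ![P, a, b] : Fin 4 → Cm 4 →L[ℂ] ℂ)) = ⊤ := hspan
    rw [h2]; trivial
  exact hle h1

variable {Y : Type} [TopologicalSpace Y] [ChartedSpace (Cm 4) Y]

/-- the preimage of a set of dimension one in the hyperplane, near a point where the rank is two -/
theorem thin_pre {V X : CSp} {vV : Y → V.pt} (hvV : IsOpenEmb V univ vV) {G : Set Y}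
    {ξ : Cm 4 → Y} {w₀ : Cm 4} {r : ℝ} (h : IsPar G ξ w₀ r) {Θ : Set X.pt} (hΘ : DimLe X 1 Θ)
    {γ : Cm 4 → X.pt} (hγ : ∀ w ∈ ball w₀ r, HolAt X γ w) {w₁ : Cm 4} (hw₁ : w₁ ∈ ball w₀ r)
    {g g' : X.pt → ℂ} (hg : X.Hol g (γ w₁)) (hg' : X.Hol g' (γ w₁)) {u u' : Cm 4} (hu : u 0 = 0)
    (hu' : u' 0 = 0) (hne : fderiv ℂ (fun z => g (γ z)) w₁ u * fderiv ℂ (fun z => g' (γ z)) w₁ u' ≠
      fderiv ℂ (fun z => g (γ z)) w₁ u' * fderiv ℂ (fun z => g' (γ z)) w₁ u) :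
    ∃ r₁ > 0, ball w₁ r₁ ⊆ ball w₀ r ∧
      DimLe V 2 ((fun w => vV (ξ w)) '' {w | w ∈ ball w₁ r₁ ∧ w 0 = 0 ∧ γ w ∈ Θ}) := by
  obtain ⟨d, hd⟩ := exists_compl3 hu hu' hne
  have hga := (hγ w₁ hw₁).analyticAt hg
  have hga' := (hγ w₁ hw₁).analyticAt hg'
  set E : Cm 4 → Cm 4 := fun w => ![w 0, g (γ w), g' (γ w), d w] with hE
  have hE4 : AnalyticAt ℂ E w₁ := by
    refine AnalyticAt.pi fun i => ?_
    fin_cases i
    · exact (ContinuousLinearMap.proj (R := ℂ) (φ := fun _ : Fin 4 => ℂ) 0).analyticAt _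
    · exact hga
    · exact hga'
    · exact d.analyticAt _
  have hEd : ∀ v, fderiv ℂ E w₁ v = ![v 0, fderiv ℂ (fun z => g (γ z)) w₁ v,
      fderiv ℂ (fun z => g' (γ z)) w₁ v, d v] := by
    intro v
    ext i
    have h1 : fderiv ℂ (fun q => E q i) w₁ v = fderiv ℂ E w₁ v i := by
      rw [fderiv_apply hE4.differentiableAt]
      rfl
    rw [← h1]
    fin_cases i
    · show fderiv ℂ (fun q : Cm 4 => q 0) w₁ v = v 0
      have := (ContinuousLinearMap.proj (R := ℂ) (φ := fun _ : Fin 4 => ℂ) 0).fderiv (x := w₁)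
      exact congrArg (fun L : Cm 4 →L[ℂ] ℂ => L v) this
    · rfl
    · rfl
    · show fderiv ℂ (fun q => d q) w₁ v = d v
      rw [d.fderiv]
  have hinj : Function.Injective (fderiv ℂ E w₁) := by
    rw [injective_iff_map_eq_zero]
    intro v hv
    rw [hEd] at hv
    exact hd v (congrFun hv 0) (congrFun hv 1) (congrFun hv 2) (congrFun hv 3)
  obtain ⟨θ, hθ, hθs, -, hθt⟩ := H73.exists_localInv hE4 hinj
  -- the neighbourhoods
  obtain ⟨U, hU, hUo, hwU⟩ := _root_.mem_nhds_iff.1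
    ((hol_eventually hg).and (hol_eventually hg'))
  obtain ⟨r₁, hr₁, hball⟩ := Metric.eventually_nhds_iff_ball.1
    ((isOpen_ball.eventually_mem hw₁).and ((θ.open_source.eventually_mem hθs).and
      ((hγ w₁ hw₁).1.eventually_mem (hUo.mem_nhds hwU))))
  refine ⟨r₁, hr₁, fun w hw => (hball w hw).1, ?_⟩
  obtain ⟨Ω, c, hΩ, hc, hcov⟩ := hΘ
  set q1 : Cm 2 → Cm 1 := fun q => fun _ => q 0 with hq1
  have hq1a : ∀ q, AnalyticAt ℂ q1 q := fun q => AnalyticAt.pi fun _ =>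
    (ContinuousLinearMap.proj (R := ℂ) (φ := fun _ : Fin 2 => ℂ) 0).analyticAt _
  set K : ℕ → Cm 2 → Cm 4 := fun k q => ![0, g (c k (q1 q)), g' (c k (q1 q)), q 1] with hK
  set Ω' : ℕ → Set (Cm 2) := fun k => {q | q1 q ∈ Ω k ∧ c k (q1 q) ∈ U ∧ K k q ∈ θ.target ∧
    θ.symm (K k q) ∈ ball w₀ r} with hΩ'
  have hcq : ∀ k q, q1 q ∈ Ω k → HolAt X (fun q => c k (q1 q)) q := fun k q hq =>
    HolAt.comp (g := c k) (γ := q1) (hc k _ hq) (hq1a q)
  have hKa : ∀ k q, q1 q ∈ Ω k → c k (q1 q) ∈ U → AnalyticAt ℂ (K k) q := by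
    intro k q hq hqU
    refine AnalyticAt.pi fun i => ?_
    fin_cases i
    · exact analyticAt_const
    · exact (hcq k q hq).analyticAt (hU hqU).1
    · exact (hcq k q hq).analyticAt (hU hqU).2
    · exact (ContinuousLinearMap.proj (R := ℂ) (φ := fun _ : Fin 2 => ℂ) 1).analyticAt _
  have hsa : ∀ k q, q ∈ Ω' k → AnalyticAt ℂ (fun q => θ.symm (K k q)) q := fun k q hq =>
    AnalyticAt.fun_comp (g := θ.symm) (hθt _ hq.2.2.1) (hKa k q hq.1 hq.2.1)
  refine ⟨Ω', fun k q => vV (ξ (θ.symm (K k q))), fun k => ?_, fun k q hq => ?_, ?_⟩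
  · rw [isOpen_iff_eventually]
    intro q hq
    exact ((hq1a q).continuousAt.eventually ((hΩ k).eventually_mem hq.1)).and
      (((hcq k q hq.1).1.eventually_mem (hUo.mem_nhds hq.2.1)).and
        (((hKa k q hq.1 hq.2.1).continuousAt.eventually_mem
          (θ.open_target.mem_nhds hq.2.2.1)).and
          ((hsa k q hq).continuousAt.eventually_mem (isOpen_ball.mem_nhds hq.2.2.2))))
  · exact HolAt.comp (g := fun w => vV (ξ w)) (γ := fun q => θ.symm (K k q))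
      (holAt_par hvV h hq.2.2.2) (hsa k q hq)
  · rintro _ ⟨w, ⟨hw, hw0, hwΘ⟩, rfl⟩
    obtain ⟨k, p, hp, hpw⟩ := mem_iUnion.1 (hcov hwΘ)
    obtain ⟨b1, b2, b3⟩ := hball w hw
    have hq : q1 ![p 0, d w] = p := by
      ext i
      fin_cases i
      rfl
    have hKw : K k ![p 0, d w] = θ w := by
      rw [hθ]
      simp only [hK, hE, hq, hpw, hw0]
      rfl
    have hsw : θ.symm (K k ![p 0, d w]) = w := by rw [hKw, θ.left_inv b2]
    refine mem_iUnion.2 ⟨k, ![p 0, d w], ⟨?_, ?_, ?_, ?_⟩, ?_⟩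
    · rw [hq]; exact hp
    · rw [hq, hpw]; exact b3
    · rw [hKw]; exact θ.map_source b2
    · rw [hsw]; exact b1
    · show vV (ξ (θ.symm (K k ![p 0, d w]))) = vV (ξ w)
      rw [hsw]

end Vale.Agent.P277.H615.I
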