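import Vale.Agent.P277.H60.X.Str
import Vale.Agent.P277.H615.R.DatumV
import Vale.Agent.P277.H615.R.NiceV
import Vale.Agent.P277.H615.I.Rk

/-!
# P277, (INJ): the generic germ of a given wedge, and of a given component of a surface
-/

open scoped Manifold ContDiff Topology
open Vale.Agent.P272.K Vale.Agent.P285.H281.FD Vale.Agent.P267.H175 Set Filter Metric

noncomputable section

namespace Vale.Agent.P277.H615.I

open Vale.Agent.P277 Vale.Agent.P277.T2 Vale.Agent.P277.H335 Vale.Agent.P277.H615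
open Vale.Agent.P277.H19 (exists_max_pow analyticAt_det det_fderiv_comp LocIso exists_ne_zero
  analyticAt_bl continuous_bl isOpen_image_bl)

variable {Y : Type} [TopologicalSpace Y] [T2Space Y] [CompactSpace Y] [ChartedSpace (Cm 4) Y]
  [IsManifold 𝓘(ℂ, Cm 4) ω Y]

omit [T2Space Y] [CompactSpace Y] [IsManifold 𝓘(ℂ, Cm 4) ω Y] in
/-- the wedge of a coordinate system -/
theorem wedge_of {X : CSp} {O : Set Y} {v : Y → X.pt} (hO : DimLe X 2 (v '' O)ᶜ)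
    {ξ : Cm 4 → X.pt} {r : ℝ} (hr : 0 < r) (hξ : LocIso X ξ (ball 0 r)) :
    IsOpen {w : Cm 4 | bl w ∈ ball (0 : Cm 4) r} ∧
      (0 : Cm 4) ∈ {w : Cm 4 | bl w ∈ ball (0 : Cm 4) r} ∧
      (∀ w : Cm 4, bl w ∈ ball (0 : Cm 4) r → HolAt X (fun w => ξ (bl w)) w) ∧
      {w : Cm 4 | bl w ∈ ball (0 : Cm 4) r} ⊆ closure {w |
        w ∈ {w : Cm 4 | bl w ∈ ball (0 : Cm 4) r} ∧ ξ (bl w) ∈ v '' O} := by
  have hWo : IsOpen {w : Cm 4 | bl w ∈ ball (0 : Cm 4) r} := isOpen_ball.preimage continuous_bl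
  have hbl0 : bl 0 = 0 := by
    ext i
    fin_cases i
    · rfl
    · change (0 : ℂ) * 0 = 0; ring
    · rfl
    · rfl
  refine ⟨hWo, ?_, fun w hw => (hξ.holAt hw).comp (analyticAt_bl w), ?_⟩
  · change bl 0 ∈ ball (0 : Cm 4) r
    rw [hbl0]; exact mem_ball_self hr
  · intro w hw
    rw [mem_closure_iff_nhds]
    intro N hN
    obtain ⟨N', hN'N, hN'o, hwN'⟩ := _root_.mem_nhds_iff.1 (inter_mem hN (hWo.mem_nhds hw))
    obtain ⟨w', hw', hw'0⟩ := exists_ne_zero (hN'o.mem_nhds hwN')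
    have h1 : IsOpen (N' ∩ {w : Cm 4 | w 0 ≠ 0}) :=
      hN'o.inter (isOpen_ne_fun (continuous_apply 0) continuous_const)
    obtain ⟨z, ⟨w'', hw'', rfl⟩, hz2⟩ := hξ.dense (by norm_num) hO
      (isOpen_image_bl h1 fun w hw => hw.2) (image_subset_iff.2 fun w hw => (hN'N hw.1).2)
      ⟨bl w', mem_image_of_mem bl ⟨hw', hw'0⟩⟩
    exact ⟨w'', (hN'N hw''.1).1, (hN'N hw''.1).2, by simpa using hz2⟩

/-- the generic germ of a given wedge -/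
theorem exists_germ_of (hTD : StTD) (hDis : T2.StDis) {k : ℕ} {V X : CSp}
    {vV : Y → V.pt} {D : Set Y} {M : Fin k → Bd Y} {m : Fin k → ℕ}
    {L : Fin k → Bd X.pt} {c : Fin k → ℕ} {O : Set Y} {v : Y → X.pt} {P Q : Fin k → ℕ}
    {T : ∀ e, (L e).ι → (((Bd.can 4 Y).pow (m e)).mul (M e)).ι → Y → ℂ} {ρ : Fin k → ℝ}
    {S : Set X.pt} (hk : 1 ≤ k) (hM : ∀ e, IsLB 4 (M e))
    (hTw : TwV vV D (fun e => ((Bd.can 4 Y).pow (m e)).mul (M e)) X L c O v P Q T ρ S)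
    (hSO : S ⊆ (v '' O)ᶜ) {ξ : Cm 4 → X.pt} {r : ℝ} (hr : 0 < r)
    (hξ : LocIso X ξ (ball 0 r))
    (hφS : ∀ w : Cm 4, bl w ∈ ball (0 : Cm 4) r → w 0 = 0 → ξ (bl w) ∈ S) :
    ∃ (W : Set (Cm 4)) (w₂ : Cm 4) (γ : Cm 4 → Y) (ch : Chart 4 Y)
      (μ : ∀ e, (M e).ι) (i : ∀ e, (L e).ι) (x : Fin k → ℚ) (J : ℕ) (κ : Fin k → ℤ),
      GermV O v T S W w₂ (fun w => ξ (bl w)) γ ch μ i x J ∧ 0 < ∑ e, ρ e / Q e * x e ∧
      (∀ e, x e = Q e * (m e * (1 - J) - κ e)) ∧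
      (∀ e, ∀ χ : Chart 4 Y → Cm 4 → Matrix (Fin 4) (Fin 4) ℂ, IsKahler χ → Nef χ (M e) →
        0 ≤ κ e) ∧ ∀ w ∈ W, bl w ∈ ball (0 : Cm 4) r := by
  have hv : IsOpenEmb X O v := (hTw.tw ⟨0, hk⟩).emb
  have hO : DimLe X 2 (v '' O)ᶜ := (hTw.tw ⟨0, hk⟩).dim
  obtain ⟨hWo, h0W, hφ, hφd⟩ := wedge_of hO hr hξ
  set φ : Cm 4 → X.pt := fun w => ξ (bl w) with hφdef
  set WB : Set (Cm 4) := {w : Cm 4 | bl w ∈ ball (0 : Cm 4) r} with hWB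
  choose i hi using fun e => (hTw.lb e).cover (φ 0)
  set W' : Set (Cm 4) := {w | w ∈ WB ∧ φ w ∈ ⋂ e, (L e).U (i e)} with hW'
  have hW'o : IsOpen W' := by
    have h1 : ContinuousOn φ WB := fun w hw => (hφ w hw).1.continuousWithinAt
    exact h1.isOpen_inter_preimage hWo (isOpen_iInter_of_finite fun e => (hTw.lb e).isOpen (i e))
  have hcl' : W' ⊆ closure {w | w ∈ W' ∧ φ w ∈ v '' O} :=
    subset_closure_of_open hW'o (fun w hw => hw.1) hφd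
  have hW'i : ∀ w ∈ W', ∀ e, φ w ∈ (L e).U (i e) := fun w hw e => mem_iInter.1 hw.2 e
  obtain ⟨w₁, hw₁, hw₁0, W₁, γ, ch, cc, x, hW₁, hw₁W, hW₁W, hγ, hO1, hO2, hT, -, hpos⟩ :=
    hTw.chain W' 0 φ i hW'o ⟨h0W, mem_iInter.2 hi⟩ rfl (fun w hw => hφ w hw.1) hcl' hW'i
  have hpos := hpos fun w hw hw0 => hφS w hw.1 hw0
  obtain ⟨g1, g2, g3, g4⟩ := hγ w₁ hw₁W
  have hW₁n := hW₁.mem_nhds hw₁W
  have hdW₁ : W₁ ⊆ closure {w | w ∈ W₁ ∧ φ w ∈ v '' O} :=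
    subset_closure_of_open hW₁ hW₁W hcl'
  -- the orders in a common chart
  have hord : ∀ e, HasOrd {w | γ w ∈ O} w₁ (fun w => T e (i e) (ch, (cc e).2) (γ w)) (x e) := by
    intro e
    refine RR.hasOrd_change (hM e) (hTw.tw e).lb (hTw.tw e).iso hw₁0 g1 (φ := φ) ?_ ?_
      (e := (cc e).1) (g4 e).1 g2 (g4 e).2 g3 (hT e)
    · filter_upwards [hW₁n] with w hw using hW'i w (hW₁W hw) e
    · filter_upwards [hW₁n] with w hw using hO2 w hw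
  -- the Jacobian
  have hdet : ∀ w ∈ W₁, φ w ∈ v '' O → (fderiv ℂ (fun w => ch (γ w)) w).det ≠ 0 := by
    intro w hw hwO
    have hwB : bl w ∈ ball (0 : Cm 4) r := (hW₁W hw).1
    have hw0 : w 0 ≠ 0 := fun h0 => (hSO (hφS w hwB h0)) hwO
    set y₀ : Y := γ w with hy₀
    have h1 : ∀ᶠ z in 𝓝 w, γ z = hv.inv y₀ (ξ (bl z)) := by
      filter_upwards [hW₁.mem_nhds hw, (hφ w hwB).1.eventually_mem
        (hv.isOpen_image.mem_nhds hwO)] with z hz hzO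
      have h2 := hO1 z hz hzO
      have h3 := hO2 z hz h2
      have h4 : ξ (bl z) = v (γ z) := h3.symm
      rw [h4, hv.inv_apply y₀ h2]
    have heq : (fun w => ch (γ w)) =ᶠ[𝓝 w] fun w => ch (hv.inv y₀ (ξ (bl w))) := by
      filter_upwards [h1] with z hz
      rw [hz]
    have hat : At ch (hv.inv y₀ (ξ (bl w))) := by
      rw [← h1.self_of_nhds]; exact (hγ w hw).2.1
    have hρan := hξ.rho_analyticAt hv y₀ hwB hwO hat
    have hJw : (fderiv ℂ (fun w => ch (γ w)) w).det =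
        (fderiv ℂ (fun w => ch (hv.inv y₀ (ξ w))) (bl w)).det * w 0 := by
      rw [heq.fderiv_eq, ← H19.det_fderiv_bl w]
      exact det_fderiv_comp (G := fun w => ch (hv.inv y₀ (ξ w))) (F := bl) hρan.differentiableAt
        (H19.analyticAt_bl w).differentiableAt
    rw [hJw]
    exact mul_ne_zero (hξ.rho_det_ne_zero hv y₀ hwB hwO hat) hw0
  have hJz : ¬ ∀ᶠ w in 𝓝 w₁, (fderiv ℂ (fun w => ch (γ w)) w).det = 0 := by
    intro hz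
    obtain ⟨w, ⟨h1, h2⟩, h3, h4⟩ := mem_closure_iff_nhds.1 (hdW₁ hw₁W) _
      (hz.and (hW₁.mem_nhds hw₁W))
    exact hdet w h3 h4 h1
  obtain ⟨J, FJ, hFJ, hJFJ, hFJ0⟩ := exists_ord (analyticAt_det g3) hw₁0 hJz
  -- a generic point
  have hfr := exists_unit'' hw₁0 hord (κ := Unit)
    (F := fun _ => FJ) (fun _ => hFJ) (fun _ => hFJ0)
  have hev : ∀ᶠ w in 𝓝 w₁, w ∈ W₁ ∧ (∀ e, w 0 = 0 →
      HasOrd {w | γ w ∈ O} w (fun w => T e (i e) (ch, (cc e).2) (γ w)) (x e)) ∧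
      AnalyticAt ℂ FJ w ∧
      ∀ᶠ z in 𝓝 w, (fderiv ℂ (fun w => ch (γ w)) z).det = z 0 ^ J * FJ z := by
    refine (hW₁.eventually_mem hw₁W).and (Filter.Eventually.and ?_
      (hFJ.eventually_analyticAt.and hJFJ.eventually_nhds))
    rw [eventually_all]
    exact fun e => (hord e).eventually hw₁0
  obtain ⟨W₂, hW₂s, hW₂, hw₁W₂⟩ := _root_.mem_nhds_iff.1 hev
  obtain ⟨w₂, ⟨hw₂0, hFne, K, hK, hdat⟩, hw₂W⟩ := (hfr.and_eventually (hW₂.mem_nhds hw₁W₂)).exists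
  choose ν Φ hν hΦ hΦ0 hrel using hdat
  have hw₂W₁ : w₂ ∈ W₁ := (hW₂s hw₂W).1
  obtain ⟨k1, k2, k3, k4⟩ := hγ w₂ hw₂W₁
  obtain ⟨-, -, m3, m4⟩ := hW₂s hw₂W
  have hκ : ∀ e, ∃ κ : ℤ, ν e = Q e * K * (m e * (1 - J) - κ) ∧
      ∀ χ : Chart 4 Y → Cm 4 → Matrix (Fin 4) (Fin 4) ℂ, IsKahler χ → Nef χ (M e) → 0 ≤ κ := by
    intro e
    refine txV hTD hDis hv hO hSO hξ hφS (hM e) (hTw.tw e).lb (hTw.tw e).hQ (hTw.tw e).iso
      (hW₁W hw₂W₁).1 hw₂0 k1 k2 (k4 e).2 k3 ?_ (hW'i w₂ (hW₁W hw₂W₁) e) hK (hΦ e).continuousAt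
      (hΦ0 e) (hrel e) m3.continuousAt (hFne ()) m4
    filter_upwards [hW₁.mem_nhds hw₂W₁] with w hw hwO
    exact ⟨hO1 w hw hwO, hO2 w hw (hO1 w hw hwO)⟩
  choose κ hκ1 hκ2 using hκ
  refine ⟨W₂, w₂, γ, ch, fun e => (cc e).2, i, x, J, κ, ⟨hW₂, hw₂W, hw₂0,
    fun w hw => hφ w (hW₁W (hW₂s hw).1).1, fun w hw hw0 => hφS w (hW₁W (hW₂s hw).1).1 hw0,
    subset_closure_of_open hW₂ (fun w hw => (hW₂s hw).1) hdW₁,
    fun w hw => ⟨(hγ w (hW₂s hw).1).1, (hγ w (hW₂s hw).1).2.1, (hγ w (hW₂s hw).1).2.2.1⟩,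
    fun w hw e => ((hγ w (hW₂s hw).1).2.2.2 e).2, fun w hw => hW'i w (hW₁W (hW₂s hw).1),
    fun w hw => hO1 w (hW₂s hw).1, fun w hw => hO2 w (hW₂s hw).1,
    fun w hw hw0 e => (hW₂s hw).2.1 e hw0, ⟨FJ, m3, hFne (), m4⟩,
    ⟨K, hK, fun e => ⟨ν e, Φ e, hν e, hΦ e, hΦ0 e, hrel e⟩⟩⟩, hpos, fun e => ?_, hκ2,
    fun w hw => (hW₁W (hW₂s hw).1).1⟩
  have h1 : (K : ℚ) ≠ 0 := by exact_mod_cast (Nat.one_le_iff_ne_zero.1 hK)
  have h2 : x e * K = Q e * (m e * (1 - J) - κ e) * K := by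
    rw [← hν e, hκ1 e]
    push_cast
    ring
  exact mul_right_cancel₀ h1 h2

/-- a coordinate system at a point where `X` is regular and `S` is a surface -/
theorem exists_locIso {X : CSp} {S Θ : Set X.pt} (hΘ : IsClosed Θ) {x₀ : X.pt}
    (hx₀ : x₀ ∈ S \ Θ) (hr : IsReg 4 X x₀) (hs : IsSurfX X S x₀) :
    ∃ (ξ : Cm 4 → X.pt) (r : ℝ) (g g' : X.pt → ℂ), 0 < r ∧ LocIso X ξ (ball 0 r) ∧
      (∀ z ∈ ball (0 : Cm 4) r, z 0 = 0 → z 1 = 0 →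
        ξ z ∈ connectedComponentIn (S \ Θ) x₀) ∧
      (∀ z ∈ ball (0 : Cm 4) r, ξ z ∉ Θ) ∧
      ∀ z ∈ ball (0 : Cm 4) r, X.Hol g (ξ z) ∧ X.Hol g' (ξ z) ∧ g (ξ z) = g x₀ + z 2 ∧
        g' (ξ z) = g' x₀ + z 3 := by
  obtain ⟨ψ, D, z₀, hψ, hz₀, rfl⟩ := H60.X.exists_sChart hr hs
  obtain ⟨h0, h1⟩ := (hψ.mem z₀ hz₀).1 hx₀.1
  have hc : ∀ z, z₀ + z ∈ D → ContinuousAt (fun z => ψ (z₀ + z)) z := fun z hz =>
    ContinuousAt.comp (g := ψ) (f := fun z => z₀ + z) (hψ.cont _ hz) (by fun_prop)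
  have hz : z₀ + (0 : Cm 4) ∈ D := by rw [add_zero]; exact hz₀
  have hca : ContinuousAt (fun z : Cm 4 => z₀ + z) 0 := by fun_prop
  obtain ⟨r, hr, hball⟩ := Metric.eventually_nhds_iff_ball.1
    ((hca.eventually_mem (hψ.isOpen.mem_nhds hz)).and
      ((hc 0 hz).eventually_mem (hΘ.isOpen_compl.mem_nhds (by
        show ψ (z₀ + 0) ∉ Θ
        rw [add_zero]; exact hx₀.2))))
  have hD : ∀ z ∈ ball (0 : Cm 4) r, z₀ + z ∈ D := fun z hz => (hball z hz).1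
  have hΘ' : ∀ z ∈ ball (0 : Cm 4) r, ψ (z₀ + z) ∉ Θ := fun z hz => (hball z hz).2
  set inv := H60.X.SChart.inv ψ D with hinv
  refine ⟨fun z => ψ (z₀ + z), r, fun y => inv y 2, fun y => inv y 3, hr, ⟨isOpen_ball, ?_, ?_, ?_⟩,
    ?_, hΘ', ?_⟩
  · intro z hz z' hz' hzz
    exact add_left_cancel (hψ.inj (hD z hz) (hD z' hz') hzz)
  · intro W hW hWo
    have h2 : (fun z => ψ (z₀ + z)) '' W = ψ '' ((fun z => z₀ + z) '' W) := by
      rw [image_image]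
    rw [h2]
    refine hψ.openMap _ ?_ ((isOpenMap_add_left z₀) W hWo)
    rintro _ ⟨z, hz, rfl⟩
    exact hD z (hW hz)
  · intro z hz
    refine ⟨hc z (hD z hz), fun f => ?_⟩
    have h2 := hψ.hol (z₀ + z) (hD z hz) f
    rw [h2]
    constructor
    · intro h3
      exact AnalyticAt.fun_comp (g := fun z => f (ψ z)) (f := fun z => z₀ + z) h3
        (analyticAt_const.add analyticAt_id)
    · intro h3
      have h4 : (fun z => f (ψ z)) = fun z' => (f ∘ fun z => ψ (z₀ + z)) (z' - z₀) := by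
        funext z'
        show f (ψ z') = f (ψ (z₀ + (z' - z₀)))
        rw [add_sub_cancel]
      rw [h4]
      refine AnalyticAt.fun_comp (g := f ∘ fun z => ψ (z₀ + z)) (f := fun z' => z' - z₀) ?_
        (analyticAt_id.sub analyticAt_const)
      rw [add_sub_cancel_left]
      exact h3
  · -- the component
    set Z : Set (Cm 4) := ball (0 : Cm 4) r ∩ {z | z 0 = 0 ∧ z 1 = 0} with hZ
    have hZc : IsPreconnected Z := by
      refine Convex.isPreconnected ((convex_ball (0 : Cm 4) r).inter ?_)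
      intro a ha b hb s t _ _ _
      refine ⟨?_, ?_⟩
      · show s * a 0 + t * b 0 = 0
        rw [ha.1, hb.1, mul_zero, mul_zero, add_zero]
      · show s * a 1 + t * b 1 = 0
        rw [ha.2, hb.2, mul_zero, mul_zero, add_zero]
    have h2 : IsPreconnected ((fun z => ψ (z₀ + z)) '' Z) :=
      hZc.image _ fun z hz => (hc z (hD z hz.1)).continuousWithinAt
    have h3 : (fun z => ψ (z₀ + z)) '' Z ⊆ S \ Θ := by
      rintro _ ⟨z, ⟨hz, hz0, hz1⟩, rfl⟩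
      refine ⟨(hψ.mem _ (hD z hz)).2 ⟨?_, ?_⟩, hΘ' z hz⟩
      · show z₀ 0 + z 0 = 0
        rw [h0, hz0, add_zero]
      · show z₀ 1 + z 1 = 0
        rw [h1, hz1, add_zero]
    have h4 : ψ z₀ ∈ (fun z => ψ (z₀ + z)) '' Z :=
      ⟨0, ⟨mem_ball_self hr, rfl, rfl⟩, by simp⟩
    intro z hz hz0 hz1
    exact h2.subset_connectedComponentIn h4 h3 ⟨z, ⟨hz, hz0, hz1⟩, rfl⟩
  · intro z hz
    have h2 : ψ (z₀ + z) ∈ ψ '' D := ⟨_, hD z hz, rfl⟩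
    refine ⟨hψ.inv_hol h2 2, hψ.inv_hol h2 3, ?_, ?_⟩
    · show inv (ψ (z₀ + z)) 2 = inv (ψ z₀) 2 + z 2
      rw [hinv, hψ.inv_apply (hD z hz), hψ.inv_apply hz₀]
      rfl
    · show inv (ψ (z₀ + z)) 3 = inv (ψ z₀) 3 + z 3
      rw [hinv, hψ.inv_apply (hD z hz), hψ.inv_apply hz₀]
      rfl

/-- the wedge of a surface has rank two -/
theorem not_rk1 {X : CSp} {ξ : Cm 4 → X.pt} {r : ℝ} (hr : 0 < r) {g g' : X.pt → ℂ} {a a' : ℂ}
    (hg : ∀ z ∈ ball (0 : Cm 4) r, X.Hol g (ξ z) ∧ X.Hol g' (ξ z) ∧ g (ξ z) = a + z 2 ∧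
      g' (ξ z) = a' + z 3) {w : Cm 4} (hw : bl w ∈ ball (0 : Cm 4) r) :
    ¬ Rk1 X (fun w => ξ (bl w)) w := by
  intro h
  have hn : ∀ᶠ z in 𝓝 w, bl z ∈ ball (0 : Cm 4) r :=
    (isOpen_ball.preimage continuous_bl).mem_nhds hw
  have h1 : (fun z => g (ξ (bl z))) =ᶠ[𝓝 w] fun z => a + z 2 := by
    filter_upwards [hn] with z hz
    exact (hg _ hz).2.2.1
  have h2 : (fun z => g' (ξ (bl z))) =ᶠ[𝓝 w] fun z => a' + z 3 := by
    filter_upwards [hn] with z hz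
    exact (hg _ hz).2.2.2
  have h3 : ∀ (i : Fin 4) (a : ℂ) (u : Cm 4), fderiv ℂ (fun z : Cm 4 => a + z i) w u = u i := by
    intro i a u
    have h4 : HasFDerivAt (fun z : Cm 4 => a + z i)
        (ContinuousLinearMap.proj (R := ℂ) (φ := fun _ : Fin 4 => ℂ) i) w :=
      (ContinuousLinearMap.proj (R := ℂ) (φ := fun _ : Fin 4 => ℂ) i).hasFDerivAt.const_add a
    rw [h4.fderiv]
    rfl
  have h5 := h g g' (hg _ hw).1 (hg _ hw).2.1 (Pi.single 2 1) (Pi.single 3 1) (by simp) (by simp)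
  rw [h1.fderiv_eq, h2.fderiv_eq, h3, h3, h3, h3] at h5
  simp at h5

/-- **(I1)** the germ at a given component -/
theorem exists_datumAt (hTD : StTD) (hDis : T2.StDis) {k : ℕ} {V X : CSp}
    {vV : Y → V.pt} (hvV : IsOpenEmb V univ vV) (hsurj : Function.Surjective vV) {n : ℕ}
    {G : Fin n → Set Y} (hG : ∀ l, IsHyp (G l)) (hcl : ∀ l, IsClosed (G l))
    {χ : Chart 4 Y → Cm 4 → Matrix (Fin 4) (Fin 4) ℂ} (hχ : IsKahler χ)
    {M : Fin k → Bd Y} (hnef : ∀ e, Nef χ (M e)) {m : Fin k → ℕ}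
    {L : Fin k → Bd X.pt} {c : Fin k → ℕ} {O : Set Y} {v : Y → X.pt} {P Q : Fin k → ℕ}
    {T : ∀ e, (L e).ι → (((Bd.can 4 Y).pow (m e)).mul (M e)).ι → Y → ℂ} {ρ : Fin k → ℝ}
    (hρ : ∀ e, 0 < ρ e) (hsum : ∑ e, ρ e * m e = 1)
    {S : Set X.pt} (hk : 1 ≤ k) (hM : ∀ e, IsLB 4 (M e))
    (hTw : TwV vV (⋃ l, G l) (fun e => ((Bd.can 4 Y).pow (m e)).mul (M e)) X L c O v P Q T ρ S)
    (hSO : S ⊆ (v '' O)ᶜ) {Θ : Set X.pt} (hΘ : IsClosed Θ) {x₀ : X.pt} (hx₀ : x₀ ∈ S \ Θ)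
    (hr : IsReg 4 X x₀) (hs : IsSurfX X S x₀) :
    ∃ l ξ w₀ r γ i n x, NiceAtV O v T (G l) ξ w₀ r γ i n x ∧
      (∀ w ∈ ball w₀ r, w 0 = 0 → γ w ∈ connectedComponentIn (S \ Θ) x₀) ∧
      (∀ w ∈ ball w₀ r, ¬ Rk1 X γ w) ∧
      ∃ κ : Fin k → ℕ, (∀ e, x e = Q e * (m e - κ e)) ∧ ∑ e, ρ e * κ e < 1 := by
  obtain ⟨ξ₀, r₀, g, g', hr₀, hξ₀, hcomp, hΘ0, hgg⟩ := exists_locIso hΘ hx₀ hr hs
  have hcS : connectedComponentIn (S \ Θ) x₀ ⊆ S := (connectedComponentIn_subset _ _).trans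
    fun x hx => hx.1
  have hφK : ∀ w : Cm 4, bl w ∈ ball (0 : Cm 4) r₀ → w 0 = 0 →
      ξ₀ (bl w) ∈ connectedComponentIn (S \ Θ) x₀ := by
    intro w hw hw0
    refine hcomp _ hw hw0 ?_
    show w 0 * w 1 = 0
    rw [hw0, zero_mul]
  obtain ⟨W, w₂, γ, ch, μ, i, x, J, κ, hg, hpos, hx, hκ, hWb⟩ := exists_germ_of hTD hDis hk hM
    hTw hSO hr₀ hξ₀ fun w hw hw0 => hcS (hφK w hw hw0)
  have hκ0 : ∀ e, 0 ≤ κ e := fun e => hκ e χ hχ (hnef e)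
  have hQ0 : ∀ e, (0 : ℝ) < Q e := fun e => by exact_mod_cast (hTw.tw e).hQ
  have h1 : ∑ e, ρ e / Q e * x e = (1 - J) - ∑ e, ρ e * κ e := by
    have h2 : ∀ e, ρ e / Q e * (x e : ℝ) = ρ e * m e * (1 - J) - ρ e * κ e := by
      intro e
      rw [hx e]
      have := hQ0 e
      push_cast
      field_simp
    simp only [h2]
    rw [Finset.sum_sub_distrib, ← Finset.sum_mul, hsum, one_mul]
  rw [h1] at hpos
  have h2 : 0 ≤ ∑ e, ρ e * (κ e : ℝ) := Finset.sum_nonneg fun e _ =>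
    mul_nonneg (hρ e).le (by exact_mod_cast hκ0 e)
  have hJ : J = 0 := by
    by_contra hJ
    have h3 : (1 : ℝ) ≤ J := by exact_mod_cast Nat.one_le_iff_ne_zero.2 hJ
    linarith
  subst hJ
  obtain ⟨ΦJ, hΦ1, hΦ2, hΦ3⟩ := hg.jac
  have hdet : (fderiv ℂ (fun w => ch (γ w)) w₂).det ≠ 0 := by
    rw [hΦ3.self_of_nhds, pow_zero, one_mul]
    exact hΦ2
  obtain ⟨l, w₃, hw₃, hw₃0, r₃, hs₃, hpar⟩ := exists_par hvV hsurj hG hcl (hTw.tw ⟨0, hk⟩).thin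
    hg.isOpen hg.mem hg.zero hg.lift hdet (by
      intro w hw hw0 hwO
      exact hSO (hg.inS w hw hw0) ⟨γ w, hwO, hg.lift2 w hw hwO⟩)
  refine ⟨l, γ, w₃, r₃, _, i, fun e => (ch, μ e), x, ⟨hpar, fun w hw => hg.hol w (hs₃ hw),
    fun w hw => hg.memU w (hs₃ hw), fun w hw e => ⟨(hg.lift w (hs₃ hw)).2.1,
      hg.memN w (hs₃ hw) e⟩, fun w hw hwO => (hg.lift2 w (hs₃ hw) hwO).symm,
    fun w hw hw0 e => hg.ord w (hs₃ hw) hw0 e⟩, fun w hw hw0 => hφK w (hWb w (hs₃ hw)) hw0,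
    fun w hw => not_rk1 hr₀ hgg (hWb w (hs₃ hw)),
    fun e => (κ e).toNat, fun e => ?_, ?_⟩
  · have h4 : ((κ e).toNat : ℚ) = κ e := by
      have : (((κ e).toNat : ℤ) : ℚ) = κ e := by rw [Int.toNat_of_nonneg (hκ0 e)]
      exact_mod_cast this
    rw [h4, hx e]
    push_cast
    ring
  · have h4 : ∀ e, ((κ e).toNat : ℝ) = κ e := by
      intro e
      have : (((κ e).toNat : ℤ) : ℝ) = κ e := by rw [Int.toNat_of_nonneg (hκ0 e)]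
      exact_mod_cast this
    simp only [h4]
    push_cast at hpos
    linarith

end Vale.Agent.P277.H615.I
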